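import Vale.Agent.P183L.Uni.Main

namespace Vale.Agent.Results.P183.AAtMostSeven

universe u

open Vale.Agent.P183 in
/-- Every lattice with at most seven elements is isomorphic to the full congruence lattice of a
finite algebra. -/
theorem result (L : Type u) [Lattice L] [Finite L] [Nonempty L] (h : Nat.card L ≤ 7) :
    Representable L :=
  Vale.Agent.P183L.Small.rep_le7 h

end Vale.Agent.Results.P183.AAtMostSeven
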